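import Vale.Agent.P250.MathlibUsed

/-!
Definitions used in the statement: Kaehler metrics on an open subset of a complex vector space,
their Levi-Civita connection, curvature, geodesic completeness, and biholomorphism with a
bounded domain.
-/

namespace Vale.Agent.P250.S

open Set

section Real

variable {E : Type*} [NormedAddCommGroup E] [NormedSpace ℝ E]

/-- `g` is a smooth Riemannian metric on the open set `M`. -/
structure IsRiemannianMetric (g : E → E → E → ℝ) (M : Set E) : Prop where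
  smooth : ∀ X Y, ContDiffOn ℝ (⊤ : ℕ∞) (fun p => g p X Y) M
  linear : ∀ p ∈ M, ∀ (r : ℝ) (X Y Z : E), g p (X + r • Y) Z = g p X Z + r * g p Y Z
  symm : ∀ p ∈ M, ∀ X Y, g p X Y = g p Y X
  pos : ∀ p ∈ M, ∀ X, X ≠ 0 → 0 < g p X X

/-- `Γ` gives the Levi-Civita connection of `g` on `M`: for constant vector fields,
`∇_X Y = Γ(X, Y)` satisfies the Koszul formula. -/
structure IsLeviCivita (g : E → E → E → ℝ) (Γ : E → E → E → E) (M : Set E) : Prop where
  smooth : ∀ X Y, ContDiffOn ℝ (⊤ : ℕ∞) (fun p => Γ p X Y) M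
  koszul : ∀ p ∈ M, ∀ X Y Z, 2 * g p (Γ p X Y) Z = fderiv ℝ (fun q => g q Y Z) p X
    + fderiv ℝ (fun q => g q X Z) p Y - fderiv ℝ (fun q => g q X Y) p Z

/-- The curvature tensor `R(X,Y)Z` of the connection `Γ`. -/
noncomputable def riem (Γ : E → E → E → E) (p X Y Z : E) : E :=
  fderiv ℝ (fun q => Γ q Y Z) p X - fderiv ℝ (fun q => Γ q X Z) p Y
    + Γ p X (Γ p Y Z) - Γ p Y (Γ p X Z)

/-- The sectional curvature of the plane spanned by `X` and `Y` at `p`. -/
noncomputable def sectional (g : E → E → E → ℝ) (Γ : E → E → E → E) (p X Y : E) : ℝ :=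
  g p (riem Γ p X Y Y) X / (g p X X * g p Y Y - g p X Y ^ 2)

/-- Every geodesic extends to all times. -/
def GeodesicallyComplete (Γ : E → E → E → E) (M : Set E) : Prop :=
  ∀ p ∈ M, ∀ X : E, ∃ γ γ' : ℝ → E, γ 0 = p ∧ γ' 0 = X ∧
    ∀ t, γ t ∈ M ∧ HasDerivAt γ (γ' t) t ∧ HasDerivAt γ' (-(Γ (γ t) (γ' t) (γ' t))) t

end Real

section Complex

variable {E : Type*} [NormedAddCommGroup E] [NormedSpace ℂ E]

/-- `g` is a Kaehler metric on the open set `M` of the complex vector space `E`:
it is a Riemannian metric, invariant under multiplication by `i`, and the two-form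
`ω(X, Y) = g(iX, Y)` is closed. -/
structure IsKaehlerMetric (g : E → E → E → ℝ) (M : Set E) : Prop
    extends IsRiemannianMetric g M where
  hermitian : ∀ p ∈ M, ∀ X Y : E, g p (Complex.I • X) (Complex.I • Y) = g p X Y
  closed : ∀ p ∈ M, ∀ X Y Z : E, fderiv ℝ (fun q => g q (Complex.I • Y) Z) p X
    + fderiv ℝ (fun q => g q (Complex.I • Z) X) p Y
    + fderiv ℝ (fun q => g q (Complex.I • X) Y) p Z = 0

/-- `M` is biholomorphic to a bounded domain of `E`. -/
def BiholomorphicToBoundedDomain (M : Set E) : Prop :=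
  ∃ (U : Set E) (F G : E → E), IsOpen U ∧ IsConnected U ∧ Bornology.IsBounded U ∧
    DifferentiableOn ℂ F M ∧ DifferentiableOn ℂ G U ∧ MapsTo F M U ∧ MapsTo G U M ∧
    (∀ p ∈ M, G (F p) = p) ∧ (∀ q ∈ U, F (G q) = q)

end Complex

end Vale.Agent.P250.S
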