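import Vale.Agent.P250.Basic

/-! T6: rectangle bound, Schwarz-Pick, and the exclusion of functions dominated by `e^{sφ}`. -/

set_option maxSynthPendingDepth 3

namespace Vale.Agent.P250

open Set Filter Topology

section Rect

lemma cosh_re_formula (z : ℂ) : (Complex.cosh z).re = Real.cosh z.re * Real.cos z.im := by
  conv_lhs => rw [← Complex.re_add_im z]
  rw [Complex.cosh_add, Complex.cosh_mul_I, Complex.sinh_mul_I]
  simp [← Complex.ofReal_cosh, ← Complex.ofReal_sinh, ← Complex.ofReal_cos, ← Complex.ofReal_sin]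

lemma cos_one_lower : (0.534 : ℝ) ≤ Real.cos 1 := by
  have h4 : (0.9685 : ℝ) ≤ Real.cos (1 / 4) := by
    have h := Real.cos_bound (x := 1 / 4) (by norm_num [abs_of_pos])
    rw [abs_of_pos (by norm_num : (0:ℝ) < 1 / 4)] at h
    have h2 := (abs_le.1 h).1
    norm_num at h2 ⊢
    linarith
  have h2 : (0.8759 : ℝ) ≤ Real.cos (1 / 2) := by
    have h := Real.cos_two_mul (1 / 4)
    rw [show (2 : ℝ) * (1 / 4) = 1 / 2 by norm_num] at h
    rw [h]
    nlinarith
  have h := Real.cos_two_mul (1 / 2)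
  rw [show (2 : ℝ) * (1 / 2) = 1 by norm_num] at h
  rw [h]
  nlinarith

lemma cosh_two_lower : (3.76 : ℝ) ≤ Real.cosh 2 := by
  rw [Real.cosh_eq]
  have h1 := Real.exp_one_gt_d9
  have h2 := Real.exp_one_lt_d9
  have h3 : Real.exp 2 = Real.exp 1 * Real.exp 1 := by rw [← Real.exp_add]; norm_num
  have h4 : Real.exp (-2) * (Real.exp 1 * Real.exp 1) = 1 := by
    rw [← h3, ← Real.exp_add]; norm_num
  have h5 := Real.exp_pos (-2)
  have h6 : Real.exp 1 * Real.exp 1 ≤ 7.39 := by nlinarith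
  have h7 : (7.389 : ℝ) ≤ Real.exp 1 * Real.exp 1 := by nlinarith
  have h8 : (0.135 : ℝ) ≤ Real.exp (-2) := by
    by_contra hcon
    push Not at hcon
    nlinarith
  linarith

lemma two_le_cosh_two_mul_cos_one : 2 ≤ Real.cosh 2 * Real.cos 1 := by
  nlinarith [cos_one_lower, cosh_two_lower]

theorem rect_bound (f : ℂ → ℂ) (R b1 b2 A B : ℝ) (hR : 0 < R) (h1 : b1 ≤ 0) (h2 : 0 ≤ b2)
    (hb : b2 - b1 ≤ 2 * R)
    (hf : ∀ ζ : ℂ, |ζ.re| ≤ 2 * R → b1 ≤ ζ.im → ζ.im ≤ b2 → DifferentiableAt ℂ f ζ)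
    (hA : ∀ ζ : ℂ, |ζ.re| ≤ 2 * R → b1 ≤ ζ.im → ζ.im ≤ b2 → ‖f ζ‖ ≤ Real.exp A)
    (hB : ∀ ζ : ℂ, |ζ.re| ≤ 2 * R → (ζ.im = b1 ∨ ζ.im = b2) → ‖f ζ‖ ≤ Real.exp B)
    (hBA : B ≤ A) : ‖f 0‖ ≤ Real.exp ((A + B) / 2) := by
  have hBm : Real.exp B ≤ Real.exp ((A + B) / 2) := Real.exp_le_exp.2 (by linarith)
  rcases eq_or_lt_of_le h1 with h10 | h10
  · exact (hB 0 (by simp; linarith) (Or.inl (by simp [h10]))).trans hBm
  rcases eq_or_lt_of_le h2 with h20 | h20
  · exact (hB 0 (by simp; linarith) (Or.inr (by simp [← h20]))).trans hBm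
  -- the comparison function
  set m : ℝ := (b1 + b2) / 2 with hm
  set K : ℝ := Real.cosh 2 * Real.cos 1 with hK
  have hK2 : 2 ≤ K := two_le_cosh_two_mul_cos_one
  have hK0 : 0 < K := by linarith
  let h : ℂ → ℂ := fun ζ => Complex.cosh ((ζ - (m : ℂ) * Complex.I) / (R : ℂ)) / (K : ℂ)
  have hre : ∀ ζ : ℂ, (h ζ).re = Real.cosh (ζ.re / R) * Real.cos ((ζ.im - m) / R) / K := by
    intro ζ
    simp only [h]
    rw [Complex.div_ofReal_re, cosh_re_formula]
    simp [Complex.div_ofReal_re, Complex.div_ofReal_im]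
  have hcos : ∀ t : ℝ, b1 ≤ t → t ≤ b2 → Real.cos 1 ≤ Real.cos ((t - m) / R) := by
    intro t ht1 ht2
    rw [← Real.cos_abs ((t - m) / R)]
    apply Real.cos_le_cos_of_nonneg_of_le_pi (abs_nonneg _) (by linarith [Real.pi_gt_three])
    rw [abs_div, abs_of_pos hR, div_le_one hR, abs_le]
    constructor <;> linarith
  have hc1 : 0 < Real.cos 1 := Real.cos_one_pos
  let U : Set ℂ := Ioo (-(2 * R)) (2 * R) ×ℂ Ioo b1 b2
  have hUb : Bornology.IsBounded U :=
    (Metric.isBounded_Ioo _ _).reProdIm (Metric.isBounded_Ioo _ _)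
  have hclU : closure U = Icc (-(2 * R)) (2 * R) ×ℂ Icc b1 b2 := by
    simp only [U]
    rw [Complex.closure_reProdIm, closure_Ioo (by linarith), closure_Ioo (by linarith)]
  let F : ℂ → ℂ := fun ζ => f ζ * Complex.exp (-((A - B : ℝ) : ℂ) * h ζ)
  have hFn : ∀ ζ, ‖F ζ‖ = ‖f ζ‖ * Real.exp (-(A - B) * (h ζ).re) := by
    intro ζ
    simp only [F]
    rw [norm_mul, Complex.norm_exp]
    congr 2
    rw [← Complex.ofReal_neg, Complex.re_ofReal_mul]
  have hFd : DiffContOnCl ℂ F U := by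
    have : DifferentiableOn ℂ F (closure U) := by
      intro ζ hζ
      rw [hclU, Complex.mem_reProdIm] at hζ
      have hfd := hf ζ (abs_le.2 ⟨hζ.1.1, hζ.1.2⟩) hζ.2.1 hζ.2.2
      apply DifferentiableAt.differentiableWithinAt
      apply hfd.mul
      apply DifferentiableAt.cexp
      apply DifferentiableAt.const_mul
      simp only [h]
      apply DifferentiableAt.div_const
      apply DifferentiableAt.ccosh
      fun_prop
    exact this.diffContOnCl
  have hfr : ∀ ζ ∈ frontier U, ‖F ζ‖ ≤ Real.exp B := by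
    intro ζ hζ
    simp only [U] at hζ
    rw [Complex.frontier_reProdIm, closure_Ioo (by linarith), closure_Ioo (by linarith),
      frontier_Ioo (by linarith), frontier_Ioo (by linarith)] at hζ
    rw [hFn]
    rcases hζ with hζ | hζ
    · rw [Complex.mem_reProdIm] at hζ
      have hxx : |ζ.re| ≤ 2 * R := abs_le.2 ⟨hζ.1.1, hζ.1.2⟩
      have hy : ζ.im = b1 ∨ ζ.im = b2 := by simpa using hζ.2
      have hy1 : b1 ≤ ζ.im := by rcases hy with hy | hy <;> linarith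
      have hy2 : ζ.im ≤ b2 := by rcases hy with hy | hy <;> linarith
      have hnn : 0 ≤ (h ζ).re := by
        rw [hre]
        have := hcos ζ.im hy1 hy2
        have h3 := Real.cosh_pos (ζ.re / R)
        have : 0 ≤ Real.cos ((ζ.im - m) / R) := by linarith
        positivity
      calc ‖f ζ‖ * Real.exp (-(A - B) * (h ζ).re) ≤ Real.exp B * 1 := by
            apply mul_le_mul (hB ζ hxx hy) _ (Real.exp_pos _).le (Real.exp_pos _).le
            rw [Real.exp_le_one_iff]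
            nlinarith
        _ = Real.exp B := mul_one _
    · rw [Complex.mem_reProdIm] at hζ
      have hx : ζ.re = -(2 * R) ∨ ζ.re = 2 * R := by simpa using hζ.1
      have hxx : |ζ.re| ≤ 2 * R := by
        rcases hx with hx | hx <;> rw [hx] <;> simp [abs_of_pos hR]
      have hch : Real.cosh (ζ.re / R) = Real.cosh 2 := by
        rcases hx with hx | hx <;> rw [hx]
        · rw [neg_div, Real.cosh_neg, mul_div_assoc, div_self hR.ne', mul_one]
        · rw [mul_div_assoc, div_self hR.ne', mul_one]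
      have h1le : 1 ≤ (h ζ).re := by
        rw [hre, hch, le_div_iff₀ hK0, one_mul, hK]
        exact mul_le_mul_of_nonneg_left (hcos _ hζ.2.1 hζ.2.2) (Real.cosh_pos 2).le
      calc ‖f ζ‖ * Real.exp (-(A - B) * (h ζ).re) ≤ Real.exp A * Real.exp (-(A - B)) := by
            apply mul_le_mul (hA ζ hxx hζ.2.1 hζ.2.2) _ (Real.exp_pos _).le (Real.exp_pos _).le
            rw [Real.exp_le_exp]
            nlinarith
        _ = Real.exp B := by rw [← Real.exp_add]; congr 1; ring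
  have h0 : (0 : ℂ) ∈ closure U := by
    rw [hclU, Complex.mem_reProdIm]
    refine ⟨⟨?_, ?_⟩, ⟨?_, ?_⟩⟩ <;> simp <;> linarith
  have hmain := Complex.norm_le_of_forall_mem_frontier_norm_le hUb hFd hfr h0
  rw [hFn] at hmain
  have hh0 : (h 0).re ≤ 1 / 2 := by
    rw [hre]
    simp only [Complex.zero_re, zero_div, Real.cosh_zero, one_mul, Complex.zero_im]
    rw [div_le_iff₀ hK0]
    have := Real.cos_le_one ((0 - m) / R)
    linarith
  have hfin : ‖f 0‖ ≤ Real.exp B * Real.exp ((A - B) * (h 0).re) := by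
    have : ‖f 0‖ = (‖f 0‖ * Real.exp (-(A - B) * (h 0).re)) * Real.exp ((A - B) * (h 0).re) := by
      rw [mul_assoc, ← Real.exp_add, neg_mul, neg_add_cancel, Real.exp_zero, mul_one]
    rw [this]
    exact mul_le_mul_of_nonneg_right hmain (Real.exp_pos _).le
  calc ‖f 0‖ ≤ Real.exp B * Real.exp ((A - B) * (h 0).re) := hfin
    _ = Real.exp (B + (A - B) * (h 0).re) := by rw [← Real.exp_add]
    _ ≤ Real.exp ((A + B) / 2) := by
        rw [Real.exp_le_exp]
        nlinarith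

end Rect

section Schwarz

lemma schwarz_pick_center {g : ℂ → ℂ} {c : ℂ} {R : ℝ}
    (hg : DifferentiableOn ℂ g (Metric.ball c R)) (hb : ∀ t ∈ Metric.ball c R, ‖g t‖ < 1)
    {z : ℂ} (hz : z ∈ Metric.ball c R) :
    ‖g z - g c‖ ≤ ‖z - c‖ / R * ‖1 - starRingEnd ℂ (g c) * g z‖ := by
  have hR : 0 < R := Metric.nonempty_ball.1 ⟨z, hz⟩
  have hc : c ∈ Metric.ball c R := Metric.mem_ball_self hR
  have hne : ∀ t ∈ Metric.ball c R, 1 - starRingEnd ℂ (g c) * g t ≠ 0 := by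
    intro t ht h
    have h1 : starRingEnd ℂ (g c) * g t = 1 := (sub_eq_zero.1 h).symm
    have h2 : ‖starRingEnd ℂ (g c) * g t‖ = 1 := by rw [h1]; simp
    rw [norm_mul, RCLike.norm_conj] at h2
    have h3 := hb c hc
    have h4 := hb t ht
    have h5 := norm_nonneg (g c)
    have h6 := norm_nonneg (g t)
    nlinarith
  have key : ∀ t ∈ Metric.ball c R, ‖g t - g c‖ ≤ ‖1 - starRingEnd ℂ (g c) * g t‖ := by
    intro t ht
    rw [← sq_le_sq₀ (norm_nonneg _) (norm_nonneg _)]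
    rw [← Complex.normSq_eq_norm_sq, ← Complex.normSq_eq_norm_sq]
    have h3 : Complex.normSq (g c) < 1 := by
      rw [Complex.normSq_eq_norm_sq]
      have := hb c hc
      have h5 := norm_nonneg (g c)
      nlinarith
    have h4 : Complex.normSq (g t) < 1 := by
      rw [Complex.normSq_eq_norm_sq]
      have := hb t ht
      have h5 := norm_nonneg (g t)
      nlinarith
    simp only [Complex.normSq_apply] at *
    simp only [Complex.sub_re, Complex.sub_im, Complex.mul_re, Complex.mul_im, Complex.conj_re,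
      Complex.conj_im, Complex.one_re, Complex.one_im]
    nlinarith
  let F : ℂ → ℂ := fun t => (g t - g c) / (1 - starRingEnd ℂ (g c) * g t)
  have hF0 : F c = 0 := by simp [F]
  have hFd : DifferentiableOn ℂ F (Metric.ball c R) := by
    apply DifferentiableOn.div
    · exact hg.sub_const _
    · exact (hg.const_mul _).const_sub _
    · exact hne
  have hmaps : MapsTo F (Metric.ball c R) (Metric.closedBall (F c) 1) := by
    intro t ht
    rw [hF0, mem_closedBall_zero_iff]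
    simp only [F]
    rw [norm_div]
    exact div_le_one_of_le₀ (key t ht) (norm_nonneg _)
  have h := Complex.dist_le_div_mul_dist_of_mapsTo_ball hFd hmaps hz
  rw [hF0, dist_zero_right, dist_eq_norm] at h
  simp only [F] at h
  rw [norm_div, div_le_iff₀ (norm_pos_iff.2 (hne z hz))] at h
  calc ‖g z - g c‖ ≤ 1 / R * ‖z - c‖ * ‖1 - starRingEnd ℂ (g c) * g z‖ := h
    _ = _ := by ring

/-- Schwarz-Pick in terms of moduli. -/
lemma abs_norm_sub_le {a z : ℂ} {r : ℝ} (hr0 : 0 ≤ r) (hr : r ≤ 1)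
    (ha : ‖a‖ < 1) (hz : ‖z‖ < 1)
    (h : ‖z - a‖ ≤ r * ‖1 - starRingEnd ℂ a * z‖) :
    |‖z‖ - ‖a‖| ≤ r * (1 - ‖a‖ * ‖z‖) := by
  have h0 : 0 ≤ 1 - ‖a‖ * ‖z‖ := by nlinarith [norm_nonneg a, norm_nonneg z]
  apply abs_le_of_sq_le_sq _ (mul_nonneg hr0 h0)
  have h1 : ‖z - a‖ ^ 2 ≤ r ^ 2 * ‖1 - starRingEnd ℂ a * z‖ ^ 2 := by
    rw [← mul_pow]
    exact pow_le_pow_left₀ (norm_nonneg _) h 2
  have h2 : ‖z - a‖ ^ 2 = ‖z‖ ^ 2 + ‖a‖ ^ 2 - 2 * (starRingEnd ℂ a * z).re := by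
    rw [← Complex.normSq_eq_norm_sq, ← Complex.normSq_eq_norm_sq, ← Complex.normSq_eq_norm_sq]
    simp only [Complex.normSq_apply, Complex.sub_re, Complex.sub_im, Complex.mul_re,
      Complex.conj_re, Complex.conj_im]
    ring
  have h3 : ‖1 - starRingEnd ℂ a * z‖ ^ 2 = 1 + ‖a‖ ^ 2 * ‖z‖ ^ 2 -
      2 * (starRingEnd ℂ a * z).re := by
    rw [← Complex.normSq_eq_norm_sq, ← Complex.normSq_eq_norm_sq, ← Complex.normSq_eq_norm_sq]
    simp only [Complex.normSq_apply, Complex.sub_re, Complex.sub_im, Complex.mul_re,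
      Complex.mul_im, Complex.conj_re, Complex.conj_im, Complex.one_re, Complex.one_im]
    ring
  have h4 : (starRingEnd ℂ a * z).re ≤ ‖a‖ * ‖z‖ := by
    calc (starRingEnd ℂ a * z).re ≤ ‖starRingEnd ℂ a * z‖ := Complex.re_le_norm _
      _ = ‖a‖ * ‖z‖ := by rw [norm_mul, RCLike.norm_conj]
  rw [h2, h3] at h1
  have h5 : 0 ≤ 1 - r ^ 2 := by nlinarith
  nlinarith [mul_le_mul_of_nonneg_left h4 h5]

lemma sp_step {a z : ℝ} (ha0 : 0 ≤ a) (ha : a < 1) (hz0 : 0 ≤ z) (hz : z < 1)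
    (h : |z - a| ≤ 5 / 6 * (1 - a * z)) : 1 - z ≤ 11 * (1 - a) ∧ 1 - a ≤ 11 * (1 - z) := by
  rw [abs_le] at h
  constructor
  · by_contra hcon
    push Not at hcon
    nlinarith [sq_nonneg (1 - z), sq_nonneg (1 - a), h.1, h.2, mul_nonneg ha0 hz0]
  · by_contra hcon
    push Not at hcon
    nlinarith [sq_nonneg (1 - z), sq_nonneg (1 - a), h.1, h.2, mul_nonneg ha0 hz0]

theorem schwarz_pick_two (g : ℂ → ℂ) (hg : DifferentiableOn ℂ g (Metric.ball (1 / 2 : ℂ) (3 / 5)))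
    (hb : ∀ t ∈ Metric.ball (1 / 2 : ℂ) (3 / 5), ‖g t‖ ≤ 1) :
    1 - ‖g 0‖ ≤ 121 * (1 - ‖g 1‖) := by
  have hm0 : (0 : ℂ) ∈ Metric.ball (1 / 2 : ℂ) (3 / 5) := by
    rw [Metric.mem_ball, dist_eq_norm]; norm_num
  have hm1 : (1 : ℂ) ∈ Metric.ball (1 / 2 : ℂ) (3 / 5) := by
    rw [Metric.mem_ball, dist_eq_norm]; norm_num
  have hmc : (1 / 2 : ℂ) ∈ Metric.ball (1 / 2 : ℂ) (3 / 5) := Metric.mem_ball_self (by norm_num)
  have hs : ∀ s : ℝ, 0 < s → s < 1 → 1 - s * ‖g 0‖ ≤ 121 * (1 - s * ‖g 1‖) := by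
    intro s hs0 hs1
    let G : ℂ → ℂ := fun t => (s : ℂ) * g t
    have hG : ∀ t, ‖G t‖ = s * ‖g t‖ := by
      intro t
      simp only [G]
      rw [norm_mul, Complex.norm_real, Real.norm_of_nonneg hs0.le]
    have hGd : DifferentiableOn ℂ G (Metric.ball (1 / 2 : ℂ) (3 / 5)) := hg.const_mul _
    have hGb : ∀ t ∈ Metric.ball (1 / 2 : ℂ) (3 / 5), ‖G t‖ < 1 := by
      intro t ht
      rw [hG]
      have := hb t ht
      nlinarith [norm_nonneg (g t)]
    have e0 := schwarz_pick_center hGd hGb hm0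
    have e1 := schwarz_pick_center hGd hGb hm1
    have n0 : ‖(0 : ℂ) - 1 / 2‖ / (3 / 5) = 5 / 6 := by norm_num
    have n1 : ‖(1 : ℂ) - 1 / 2‖ / (3 / 5) = 5 / 6 := by norm_num
    rw [n0] at e0
    rw [n1] at e1
    have f0 := abs_norm_sub_le (by norm_num) (by norm_num) (hGb _ hmc) (hGb _ hm0) e0
    have f1 := abs_norm_sub_le (by norm_num) (by norm_num) (hGb _ hmc) (hGb _ hm1) e1
    have g0 := sp_step (norm_nonneg _) (hGb _ hmc) (norm_nonneg _) (hGb _ hm0) f0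
    have g1 := sp_step (norm_nonneg _) (hGb _ hmc) (norm_nonneg _) (hGb _ hm1) f1
    rw [← hG, ← hG]
    linarith [g0.1, g1.2]
  by_contra hcon
  push Not at hcon
  set a := ‖g 0‖
  set b := ‖g 1‖
  have hpos : 120 < 121 * b - a := by linarith
  have hq := hs ((120 / (121 * b - a) + 1) / 2) (by positivity) (by
    have : 120 / (121 * b - a) < 1 := by rw [div_lt_one (by linarith)]; linarith
    linarith)
  have hd : 120 / (121 * b - a) * (121 * b - a) = 120 := by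
    field_simp
  nlinarith

end Schwarz

section NoFun

lemma continuous_rho : Continuous rho := by
  unfold rho
  fun_prop

lemma isOpen_DD_aux : IsOpen DD := isOpen_lt continuous_const continuous_rho

lemma convex_DD_aux : Convex ℝ DD := by
  intro p hp q hq a b ha hb hab
  simp only [DD, mem_ofPred_eq, rho] at hp hq ⊢
  simp only [Prod.fst_add, Prod.snd_add, Prod.smul_fst, Prod.smul_snd, Complex.add_im,
    Complex.real_smul, Complex.im_ofReal_mul]
  rcases eq_or_lt_of_le ha with ha0 | ha0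
  · have hb1 : b = 1 := by linarith
    subst hb1
    rw [← ha0]
    simpa using hq
  · nlinarith [mul_nonneg ha hb, sq_nonneg (p.1.im - q.1.im), mul_pos ha0 hp,
      mul_nonneg hb hq.le]

lemma DD_im_pos {q : ℂ × ℂ} (hq : q ∈ DD) : 0 < q.2.im := by
  have h : 0 < q.2.im - q.1.im ^ 2 := hq
  nlinarith [sq_nonneg q.1.im]

/-- a holomorphic function on `DD` vanishing where `Im w < y0` is zero -/
lemma eq_zero_of_low {f : ℂ × ℂ → ℂ} (hf : DifferentiableOn ℂ f DD) {y0 : ℝ} (hy : 0 < y0)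
    (h0 : ∀ q ∈ DD, q.2.im < y0 → f q = 0) : ∀ q ∈ DD, f q = 0 := by
  intro q hq
  set q1 : ℂ × ℂ := (0, ((y0 / 2 : ℝ) : ℂ) * Complex.I) with hq1
  have hq1D : q1 ∈ DD := by
    simp [DD, rho, q1, hy]
  have hq1y : q1.2.im < y0 := by simp [q1]; linarith
  let ℓ : ℂ → ℂ × ℂ := fun ζ => q1 + ζ • (q - q1)
  have hℓc : Continuous ℓ := by simp only [ℓ]; fun_prop
  have hℓd : Differentiable ℂ ℓ := by simp only [ℓ]; fun_prop
  let U : Set ℂ := ℓ ⁻¹' DD
  have hUo : IsOpen U := isOpen_DD_aux.preimage hℓc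
  have hUc : Convex ℝ U := by
    intro u hu v hv a b ha hb hab
    have h := convex_DD_aux hu hv ha hb hab
    have e : a • ℓ u + b • ℓ v = ℓ (a • u + b • v) := by
      simp only [ℓ, smul_add, add_smul, smul_assoc]
      calc a • q1 + a • u • (q - q1) + (b • q1 + b • v • (q - q1)) =
          (a + b) • q1 + (a • u • (q - q1) + b • v • (q - q1)) := by rw [add_smul]; abel
        _ = _ := by rw [hab, one_smul]
    change ℓ (a • u + b • v) ∈ DD
    rw [← e]
    exact h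
  have hU0 : (0 : ℂ) ∈ U := by change ℓ 0 ∈ DD; simp [ℓ]; exact hq1D
  have hU1 : (1 : ℂ) ∈ U := by change ℓ 1 ∈ DD; simp [ℓ]; exact hq
  have hd : DifferentiableOn ℂ (f ∘ ℓ) U :=
    hf.comp hℓd.differentiableOn (fun ζ hζ => hζ)
  have han : AnalyticOnNhd ℂ (f ∘ ℓ) U := hd.analyticOnNhd hUo
  have hev : (f ∘ ℓ) =ᶠ[𝓝 0] 0 := by
    have h1 : ∀ᶠ ζ in 𝓝 (0 : ℂ), ζ ∈ U := hUo.mem_nhds hU0
    have h2 : ∀ᶠ ζ in 𝓝 (0 : ℂ), (ℓ ζ).2.im < y0 := by
      have hc : Continuous fun ζ => (ℓ ζ).2.im := by fun_prop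
      have h3 : (ℓ 0).2.im < y0 := by
        have : ℓ 0 = q1 := by simp [ℓ]
        rw [this]; exact hq1y
      exact hc.continuousAt.eventually (gt_mem_nhds h3)
    filter_upwards [h1, h2] with ζ h1 h2
    exact h0 _ h1 h2
  have h := han.eqOn_zero_of_preconnected_of_eventuallyEq_zero hUc.isPreconnected hU0 hev hU1
  have e1 : ℓ 1 = q := by simp [ℓ]
  simpa [e1] using h

lemma exists_damping {C m0 s y0 y1 : ℝ} (hC : 0 < C) (hm0 : 0 < m0) (hy : y1 < y0) :
    ∃ d : ℝ, 0 ≤ d ∧ C * Real.exp (-(d * y0)) < Real.exp (-s) * (m0 * Real.exp (-(d * y1))) := by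
  have hdiff : 0 < y0 - y1 := by linarith
  have hpos : 0 < Real.exp (-s) * m0 / C := by positivity
  refine ⟨max 0 ((-Real.log (Real.exp (-s) * m0 / C) + 1) / (y0 - y1)), le_max_left _ _, ?_⟩
  set d := max 0 ((-Real.log (Real.exp (-s) * m0 / C) + 1) / (y0 - y1)) with hdd
  have h1 : (-Real.log (Real.exp (-s) * m0 / C) + 1) / (y0 - y1) ≤ d := le_max_right _ _
  rw [div_le_iff₀ hdiff] at h1
  have h2 : Real.exp (-(d * (y0 - y1))) < Real.exp (-s) * m0 / C := by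
    rw [← Real.exp_log hpos]
    apply Real.exp_lt_exp.2
    linarith
  rw [lt_div_iff₀ hC] at h2
  have e : Real.exp (-(d * y0)) =
      Real.exp (-(d * (y0 - y1))) * Real.exp (-(d * y1)) := by
    rw [← Real.exp_add]; congr 1; ring
  calc C * Real.exp (-(d * y0)) =
        (Real.exp (-(d * (y0 - y1))) * C) * Real.exp (-(d * y1)) := by
        rw [e]; ring
    _ < (Real.exp (-s) * m0) * Real.exp (-(d * y1)) :=
        mul_lt_mul_of_pos_right h2 (Real.exp_pos _)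
    _ = _ := by ring

/-- normalisation near a point where `|f| e^{-sφ}` is almost maximal -/
lemma exists_normalised {φ : ℂ × ℂ → ℝ} {s y0 C : ℝ} (hs : 0 < s) {f : ℂ × ℂ → ℂ}
    (hf : DifferentiableOn ℂ f DD) (hC : ∀ q ∈ DD, ‖f q‖ ≤ C * Real.exp (s * φ q))
    {z1 : ℂ × ℂ} (hz1 : z1 ∈ DD) (hz1y : z1.2.im < y0) (hz1f : f z1 ≠ 0) :
    ∃ F : ℂ × ℂ → ℂ, DifferentiableOn ℂ F DD ∧ (∀ q ∈ DD, ‖F q‖ ≤ Real.exp (s * φ q)) ∧
      ∃ p ∈ DD, p.2.im ≤ y0 ∧ Real.exp (s * φ p - s) < ‖F p‖ := by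
  have hCpos : 0 < C := by
    have := hC z1 hz1
    have h2 : 0 < ‖f z1‖ := norm_pos_iff.2 hz1f
    by_contra h
    push Not at h
    have := mul_nonpos_of_nonpos_of_nonneg h (Real.exp_pos (s * φ z1)).le
    linarith
  set m0 : ℝ := ‖f z1‖ * Real.exp (-(s * φ z1)) with hm0
  have hm0pos : 0 < m0 := mul_pos (norm_pos_iff.2 hz1f) (Real.exp_pos _)
  obtain ⟨d, hd0, hd⟩ := exists_damping (s := s) hCpos hm0pos hz1y
  let fd : ℂ × ℂ → ℂ := fun q => f q * Complex.exp (Complex.I * (d : ℂ) * q.2)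
  have hfdn : ∀ q, ‖fd q‖ = ‖f q‖ * Real.exp (-(d * q.2.im)) := by
    intro q
    simp only [fd]
    rw [norm_mul, Complex.norm_exp]
    congr 2
    simp [mul_assoc]
  let ratio : ℂ × ℂ → ℝ := fun q => ‖fd q‖ * Real.exp (-(s * φ q))
  have hratio : ∀ q ∈ DD, ratio q ≤ C * Real.exp (-(d * q.2.im)) := by
    intro q hq
    simp only [ratio]
    rw [hfdn]
    have h1 : ‖f q‖ * Real.exp (-(s * φ q)) ≤ C := by
      have h2 := mul_le_mul_of_nonneg_right (hC q hq) (Real.exp_pos (-(s * φ q))).le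
      rw [mul_assoc, ← Real.exp_add] at h2
      simpa using h2
    calc ‖f q‖ * Real.exp (-(d * q.2.im)) * Real.exp (-(s * φ q)) =
          (‖f q‖ * Real.exp (-(s * φ q))) * Real.exp (-(d * q.2.im)) := by ring
      _ ≤ _ := mul_le_mul_of_nonneg_right h1 (Real.exp_pos _).le
  have hratio1 : ∀ q ∈ DD, ratio q ≤ C := by
    intro q hq
    refine (hratio q hq).trans ?_
    have : Real.exp (-(d * q.2.im)) ≤ 1 := by
      rw [Real.exp_le_one_iff]
      have := mul_nonneg hd0 (DD_im_pos hq).le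
      linarith
    nlinarith
  let S : ℝ := sSup (ratio '' DD)
  have hbdd : BddAbove (ratio '' DD) := by
    refine ⟨C, ?_⟩
    rintro _ ⟨q, hq, rfl⟩
    exact hratio1 q hq
  have hne : (ratio '' DD).Nonempty := ⟨_, z1, hz1, rfl⟩
  have hSz1 : ratio z1 ≤ S := le_csSup hbdd ⟨z1, hz1, rfl⟩
  have hrz1 : ratio z1 = m0 * Real.exp (-(d * z1.2.im)) := by
    simp only [ratio]
    rw [hfdn, hm0]
    ring
  have hSpos : 0 < S := lt_of_lt_of_le (by rw [hrz1]; positivity) hSz1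
  have hes : Real.exp (-s) < 1 := by rw [Real.exp_lt_one_iff]; linarith
  obtain ⟨_, ⟨p, hp, rfl⟩, hpS⟩ := exists_lt_of_lt_csSup hne
    (show Real.exp (-s) * S < S by nlinarith)
  have hpy : p.2.im ≤ y0 := by
    by_contra hcon
    push Not at hcon
    have h1 := hratio p hp
    have h2 : Real.exp (-(d * p.2.im)) ≤ Real.exp (-(d * y0)) := by
      rw [Real.exp_le_exp]
      nlinarith
    have h3 : C * Real.exp (-(d * p.2.im)) ≤ C * Real.exp (-(d * y0)) :=
      mul_le_mul_of_nonneg_left h2 hCpos.le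
    have h4 : Real.exp (-s) * (m0 * Real.exp (-(d * z1.2.im))) ≤ Real.exp (-s) * S := by
      rw [← hrz1]
      exact mul_le_mul_of_nonneg_left hSz1 (Real.exp_pos _).le
    linarith
  have hrn : ∀ q, ‖fd q‖ = ratio q * Real.exp (s * φ q) := by
    intro q
    simp only [ratio]
    rw [mul_assoc, ← Real.exp_add]
    simp
  have hFn : ∀ q, ‖fd q / (S : ℂ)‖ = ‖fd q‖ / S := by
    intro q
    rw [norm_div, Complex.norm_real, Real.norm_of_nonneg hSpos.le]
  have hfdd : DifferentiableOn ℂ fd DD := by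
    apply hf.mul
    apply Differentiable.differentiableOn
    fun_prop
  refine ⟨fun q => fd q / (S : ℂ), ?_, ?_, p, hp, hpy, ?_⟩
  · simp only [div_eq_mul_inv]
    exact hfdd.mul_const _
  · intro q hq
    rw [hFn, div_le_iff₀ hSpos]
    have h1 : ratio q ≤ S := le_csSup hbdd ⟨q, hq, rfl⟩
    rw [hrn, mul_comm (Real.exp (s * φ q)) S]
    exact mul_le_mul_of_nonneg_right h1 (Real.exp_pos _).le
  · rw [hFn, lt_div_iff₀ hSpos, hrn, Real.exp_sub]
    have h3 : Real.exp (s * φ p) / Real.exp s * S = (Real.exp (-s) * S) * Real.exp (s * φ p) := by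
      rw [Real.exp_neg]; field_simp
    rw [h3]
    exact mul_lt_mul_of_pos_right hpS (Real.exp_pos _)

lemma differentiableAt_line {F : ℂ × ℂ → ℂ} (hF : DifferentiableOn ℂ F DD) (c v : ℂ × ℂ) (t : ℂ)
    (ht : c + t • v ∈ DD) : DifferentiableAt ℂ (fun t : ℂ => F (c + t • v)) t := by
  have h1 : DifferentiableAt ℂ F (c + t • v) := (hF _ ht).differentiableAt
    (isOpen_DD_aux.mem_nhds ht)
  have h2 : DifferentiableAt ℂ (fun t : ℂ => c + t • v) t := by fun_prop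
  exact DifferentiableAt.comp t h1 h2

/-- numerical contradiction -/
lemma final_num {s c1 c2 Λ a b : ℝ} (hs : 0 < s) (hc1 : 0 ≤ c1) (hc2 : 0 ≤ c2)
    (hΛ : 1000 * (c1 + c2 + 1) ≤ Λ) (hsΛ : s * (Λ + c2) < 1)
    (h : 1 - a ≤ 121 * (1 - b)) (ha : a ≤ Real.exp (-(s * (Λ + c2))))
    (hb : Real.exp (-(s * (2 * c1 + c2 + 3))) ≤ b) : False := by
  set u := s * (Λ + c2) with hu
  have hu0 : 0 < u := by
    apply mul_pos hs; linarith
  have h1 : Real.exp (-u) ≤ 1 - u / 2 := by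
    have h3 := Real.add_one_le_exp u
    have h4 : Real.exp (-u) * Real.exp u = 1 := by rw [← Real.exp_add]; simp
    have h5 := Real.exp_pos (-u)
    have h6 : Real.exp (-u) * (u + 1) ≤ 1 :=
      (mul_le_mul_of_nonneg_left h3 h5.le).trans h4.le
    by_contra hcon
    push Not at hcon
    nlinarith
  have h2 : 1 - s * (2 * c1 + c2 + 3) ≤ Real.exp (-(s * (2 * c1 + c2 + 3))) := by
    have := Real.add_one_le_exp (-(s * (2 * c1 + c2 + 3)))
    linarith
  have h3 : u / 2 ≤ 121 * (s * (2 * c1 + c2 + 3)) := by linarith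
  have h4 : s * (1000 * (c1 + c2 + 1)) ≤ s * Λ := mul_le_mul_of_nonneg_left hΛ hs.le
  have h5 : 0 ≤ s * c1 := mul_nonneg hs.le hc1
  have h6 : 0 ≤ s * c2 := mul_nonneg hs.le hc2
  nlinarith

/-- the two-step argument at the almost maximal point -/
lemma false_of_star {φ : ℂ × ℂ → ℝ} {y0 c1 c2 Λ : ℝ}
    (hc1 : 0 ≤ c1) (hc2 : 0 ≤ c2) (hΛ : 1000 * (c1 + c2 + 1) ≤ Λ)
    (hS : Star φ y0 c1 c2 Λ) {s : ℝ} (hs : 0 < s) (hsΛ : s * (Λ + c2) < 1)
    {F : ℂ × ℂ → ℂ} (hFd : DifferentiableOn ℂ F DD)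
    (hFu : ∀ q ∈ DD, ‖F q‖ ≤ Real.exp (s * φ q)) {p : ℂ × ℂ} (hp : p ∈ DD)
    (hpy : p.2.im ≤ y0) (hFp : Real.exp (s * φ p - s) < ‖F p‖) : False := by
  obtain ⟨x0, R, b1, b2, hR, hb1, hb2, hbR, hrect, hedge⟩ := hS p hp hpy
  obtain ⟨ζ, hζ1, hζ2, hζ3⟩ : ∃ ζ : ℂ, |ζ.re| ≤ 2 * R ∧ (ζ.im = b1 ∨ ζ.im = b2) ∧
      Real.exp (s * (φ p - c1 - 3)) < ‖F (p + ζ • ((1 : ℂ), (2 * x0 : ℂ)))‖ := by
    by_contra hcon
    push Not at hcon
    have h := rect_bound (fun ζ => F (p + ζ • ((1 : ℂ), (2 * x0 : ℂ)))) R b1 b2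
      (s * (φ p + c1)) (s * (φ p - c1 - 3)) hR hb1 hb2 hbR
      (fun ζ h1 h2 h3 => differentiableAt_line hFd _ _ _ (hrect ζ h1 h2 h3).1)
      (fun ζ h1 h2 h3 => (hFu _ (hrect ζ h1 h2 h3).1).trans (Real.exp_le_exp.2
        (mul_le_mul_of_nonneg_left (hrect ζ h1 h2 h3).2 hs.le)))
      (fun ζ h1 h2 => hcon ζ h1 h2)
      (mul_le_mul_of_nonneg_left (by linarith) hs.le)
    simp only [zero_smul, add_zero] at h
    have h2 := lt_of_lt_of_le hFp h
    rw [Real.exp_lt_exp] at h2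
    nlinarith
  have hζD := hrect ζ hζ1 (by rcases hζ2 with h | h <;> linarith)
    (by rcases hζ2 with h | h <;> linarith)
  obtain ⟨p3, hp3, hp3φ, hdisc⟩ := hedge ζ hζ1 hζ2
  generalize p + ζ • ((1 : ℂ), (2 * x0 : ℂ)) = p2 at *
  let g : ℂ → ℂ := fun t => F (p3 + t • (p2 - p3)) * ((Real.exp (-(s * (φ p2 + c2))) : ℝ) : ℂ)
  have hgn : ∀ t, ‖g t‖ = ‖F (p3 + t • (p2 - p3))‖ * Real.exp (-(s * (φ p2 + c2))) := by
    intro t
    simp only [g]
    rw [norm_mul, Complex.norm_real, Real.norm_of_nonneg (Real.exp_pos _).le]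
  have hg := schwarz_pick_two g
    (fun t ht => ((differentiableAt_line hFd _ _ _ (hdisc t ht).1).mul_const
      _).differentiableWithinAt)
    (fun t ht => by
      rw [hgn]
      have h1 := hFu _ (hdisc t ht).1
      have h2 : Real.exp (s * φ (p3 + t • (p2 - p3))) ≤ Real.exp (s * (φ p2 + c2)) :=
        Real.exp_le_exp.2 (mul_le_mul_of_nonneg_left (hdisc t ht).2 hs.le)
      calc _ ≤ Real.exp (s * (φ p2 + c2)) * Real.exp (-(s * (φ p2 + c2))) :=
            mul_le_mul_of_nonneg_right (h1.trans h2) (Real.exp_pos _).le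
        _ = 1 := by rw [← Real.exp_add]; simp)
  have hg0 : ‖g 0‖ ≤ Real.exp (-(s * (Λ + c2))) := by
    rw [hgn]
    simp only [zero_smul, add_zero]
    calc _ ≤ Real.exp (s * φ p3) * Real.exp (-(s * (φ p2 + c2))) :=
          mul_le_mul_of_nonneg_right (hFu p3 hp3) (Real.exp_pos _).le
      _ = Real.exp (s * φ p3 + -(s * (φ p2 + c2))) := by rw [← Real.exp_add]
      _ ≤ _ := by
          rw [Real.exp_le_exp]
          nlinarith
  have hg1 : Real.exp (-(s * (2 * c1 + c2 + 3))) ≤ ‖g 1‖ := by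
    rw [hgn]
    have e : p3 + (1 : ℂ) • (p2 - p3) = p2 := by simp
    rw [e]
    calc Real.exp (-(s * (2 * c1 + c2 + 3))) ≤
          Real.exp (s * (φ p - c1 - 3) + -(s * (φ p2 + c2))) := by
          rw [Real.exp_le_exp]
          nlinarith [hζD.2]
      _ = Real.exp (s * (φ p - c1 - 3)) * Real.exp (-(s * (φ p2 + c2))) := by
          rw [← Real.exp_add]
      _ ≤ _ := mul_le_mul_of_nonneg_right hζ3.le (Real.exp_pos _).le
  exact final_num hs hc1 hc2 hΛ hsΛ hg hg0 hg1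

theorem noFunction_of_star (φ : ℂ × ℂ → ℝ) (y0 c1 c2 Λ : ℝ) (hφ : ContinuousOn φ DD)
    (hy : 0 < y0) (hc1 : 0 ≤ c1) (hc2 : 0 ≤ c2) (hΛ : 1000 * (c1 + c2 + 1) ≤ Λ)
    (hS : Star φ y0 c1 c2 Λ) : ∃ s0 > 0, ∀ s, 0 < s → s < s0 → NoFunction (fun q => s * φ q) := by
  have hΛ0 : 0 < Λ + c2 + 1 := by linarith
  refine ⟨1 / (Λ + c2 + 1), by positivity, ?_⟩
  intro s hs hs0 f hf hC
  have hsΛ : s * (Λ + c2) < 1 := by
    rw [lt_div_iff₀ hΛ0] at hs0
    nlinarith
  apply eq_zero_of_low hf hy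
  by_contra hcon
  push Not at hcon
  obtain ⟨z1, hz1, hz1y, hz1f⟩ := hcon
  obtain ⟨C, hC⟩ := hC
  obtain ⟨F, hFd, hFu, p, hp, hpy, hFp⟩ := exists_normalised hs hf hC hz1 hz1y hz1f
  exact false_of_star hc1 hc2 hΛ hS hs hsΛ hFd hFu hp hpy hFp

end NoFun

end Vale.Agent.P250
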